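import Crest.Agent.X212.Mcg32.Good
import Crest.Agent.X212.Geo28.Re

/-!
# Row 212, layer GEO (helper19): ALG-2', a model pentagon with high marks (after `Mcg32.good`)
-/

set_option autoImplicit false

open Module Function Filter Finset

noncomputable section

namespace Crest.Agent.X212.Tri19

open Win22 Flo2 Mcg32
open Bor5 (K)

open Classical in
/-- ALG-2' -/
theorem good2Stmt : Good2Stmt := by
  rintro S Z a b c f g h D0 D1 N _ P ⟨Q⟩
  have dL : ∀ n, Z.dg3 (P.Lc n) + Z.dg N.B = 0 := fun n => by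
    obtain ⟨θ, rfl⟩ := P.β0.surjective n
    have h1 := Z.dg_cp (P.κ θ.1) θ.2 (by rw [P.c0 θ]; exact P.live)
    have h2 := Z.dg_fc (P.κ θ.1) (P.ι θ.1) (by simp [(P.bκ θ.1).1])
    rw [P.c0 θ] at h1
    rw [Z.dg_tp _ _ (Q.tp θ.1)] at h2
    simp only at h1
    linarith
  obtain ⟨n⟩ := Q.ne
  refine ⟨fun k => ?_, fun k => ?_, ?_⟩
  · obtain ⟨θ, e⟩ := P.β1.surjective (n, k)
    have h1 := Z.dg_cp _ θ.1.2 θ.2
    have h2 := Z.dg_fc _ (P.Γ1 θ.1.1.1) ((P.bR1 θ.1.1.1).1.mem_iff.2 (by simp))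
    obtain ⟨q, q0, hq⟩ := Q.tp1 θ.1.1.1 (by_contra fun h' => θ.2 ((Q.dd1 _ _).2 h'))
    rw [P.c1 θ, e] at h1
    rw [Z.dg_tp _ _ hq] at h2
    simp only at h1
    linarith [dL n]
  · obtain ⟨θ, e⟩ := P.β2.surjective (n, k)
    have h1 := Z.dg_cp _ θ.1.2 θ.2
    have h2 := Z.dg_fc _ (P.Γ2 θ.1.1.1) ((P.bR2 θ.1.1.1).1.mem_iff.2 (by simp))
    obtain ⟨q, q0, hq⟩ := Q.tp2 θ.1.1.1 (by_contra fun h' => θ.2 ((Q.dd2 _ _).2 h'))
    rw [P.c2 θ, e] at h1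
    rw [Z.dg_tp _ _ hq] at h2
    simp only at h1
    linarith [dL n]
  obtain ⟨n1, h1⟩ := side Z (half := fun k => D0.half (P.e0 k).1.1) (r := P.r1)
    (fun k => P.e0.injective (Subtype.ext (by rw [P.er1, P.er1, D0.rr])))
    (fun k => by rw [P.er1, D0.hr]) Q.al1 P.bR1 P.β1 P.c1 Q.dd1 Q.tp1 Q.w1 (fun k o p q t s => (Q.n1 k o p q s).resolve_right
      fun ⟨_, h, t'⟩ => h.ne ((Z.dg_tp _ _ t').symm.trans (Z.dg_tp _ _ t)))
    P.prp.2.2.2.2.2.1 N.p1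
  obtain ⟨n2, h2⟩ := side Z (half := fun k => D1.half (P.e1 k).1.2) (r := P.r2)
    (fun k => P.e1.injective (Subtype.ext (by rw [P.er2, P.er2, D1.rr])))
    (fun k => by rw [P.er2, D1.hr]) Q.al2 P.bR2 P.β2 P.c2 Q.dd2 Q.tp2 Q.w2 (fun k o p q t s => (Q.n2 k o p q s).resolve_right
      fun ⟨_, h, t'⟩ => h.ne ((Z.dg_tp _ _ t').symm.trans (Z.dg_tp _ _ t)))
    P.prp.2.2.2.2.2.2.1 N.p2
  obtain ⟨T, hT⟩ := alive Z P.prp.2.2.2.2.2.2.2.2.2 0
  obtain ⟨i0, e0⟩ := Q.bij.2 Q.s0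
  obtain ⟨n3, h3⟩ := Z.hi1 _ (Q.hi1 i0)
  obtain ⟨l, hl⟩ := exists_nat_ge (max (max n1 n2) n3 - (Z.A a).w Q.s0)
  set k0 := l + Z.N a
  set y : ℚ := (Z.A a).w Q.s0 + (2 * k0 + 2 : ℕ) with hy
  have ly : max (max n1 n2) n3 ≤ y := by
    have : (l : ℚ) ≤ (2 * k0 + 2 : ℕ) := by exact_mod_cast (by omega)
    linarith
  simp only [max_le_iff] at ly
  choose D hD using fun i => mas0 Z (P.κ i) (P.bκ i).2 y
  set L0 := (univ.sigma D).map P.β0.toEmbedding with hL0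
  filter_upwards [h1 y ly.1.1 L0 (-Z.dg N.B) T,
    h2 y ly.1.2 L0 (-Z.dg N.B) T, hT y, eventually_all.2 hD,
    h3 y ly.2,
    Z.ev a Q.qhs Q.s0 (2 * k0 + 2) (by omega) ⟨k0 + 1, by ring⟩,
    Z.od a Q.qhs Q.s0 (2 * k0 + 1) (by omega) ⟨k0, rfl⟩,
    Z.od a Q.qhs Q.s0 (2 * k0 + 3) (by omega) ⟨k0 + 1, by ring⟩] with m a1 a2 a3 a4 a5 ⟨i, hi, hu⟩ o1 o2
  have iy : ((Z.A a).lab m i).2 ≤ y := by rw [hi]
  have hd : ∀ j, Z.d a m i j = 0 ∧ Z.d a m j i = 0 := fun j =>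
    ⟨by_contra fun h0 => o1 j (by rw [Z.hom a m i j h0, hi, sh]; push_cast; congr 1; ring),
      by_contra fun h0 => o2 j (by
        have := Z.hom a m j i h0
        rw [hi, sh, Prod.mk.injEq] at this
        refine Prod.ext this.1.symm ?_
        have := this.2
        push_cast at this ⊢
        linarith)⟩
  have hL : ∀ n ∉ L0, ∀ j, Z.z3 (P.Lc n) m i i j = 0 := fun n hn => by
    obtain ⟨θ, rfl⟩ := P.β0.surjective n
    have := (a4 θ.1 i iy hd).1 θ.2 fun h' => hn (mem_map_of_mem _ (mem_sigma.2 ⟨mem_univ _, h'⟩))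
    rwa [P.c0 θ] at this
  have E : ∑ j, (∑ n ∈ L0, Z.z3 (P.Lc n) m i i j) * Z.z N.B m j (Z.pt m) = 1 := by
    have e1 : ∑ i', (Z.z (P.ι i') m i i + ∑ c ∈ D i', capv Z (S.cp (P.κ i') c) m i i) = 0 :=
      sum_eq_zero fun i' _ => by simpa [(P.bκ i').1] using (a4 i' i iy hd).2
    have e2 : ∑ i', Z.z (P.ι i') m i i = 1 := by
      rw [sum_eq_single i0 (fun i' _ h' => ?_) fun h => absurd (mem_univ _) h]
      · obtain ⟨k, hk⟩ := a5 i (hi.trans (congrArg (·, y) e0.symm))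
        have := (Z.hz _ m i k hk).2
        rw [Q.st, Z.dg_tp _ _ (Q.tp _), hi, add_zero, show S.s _ = _ from e0] at this
        exact k_one (hu k this ▸ hk)
      · exact by_contra fun k => h' (Q.bij.1 ((Z.hz _ m i i k).1.symm.trans (by rw [hi]; exact e0.symm)))
    rw [sum_add_distrib, e2, sum_sigma', CharTwo.add_eq_zero] at e1
    rw [e1, hL0]
    simp only [sum_map, sum_mul]
    rw [sum_comm]
    refine sum_congr rfl fun θ _ => ?_
    rw [P.c0 θ]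
    rfl
  obtain ⟨j0, -, hj0⟩ := exists_ne_zero_of_sum_ne_zero (E.trans_ne one_ne_zero)
  have dj : ((Z.A N.x).lab m j0).2 = -Z.dg N.B := by
    have := congrArg Prod.snd (Z.hz _ m _ _ (right_ne_zero_of_mul hj0)).2
    rw [Z.pt_deg] at this
    simp only at this
    linarith
  have hj : ∀ n j, Z.z3 (P.Lc n) m i i j ≠ 0 → j = j0 := fun n j h0 =>
    Z.thin _ N.thin m _ _ (by linarith [(Z.hz3 _ m i i j h0).2.2.2, dL n])
  have hρ : ∀ k ∉ T, Z.z (P.ρ k) m i i = 0 := fun k hk => by_contra fun h0 =>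
    h0 (a3 k hk i i (by simpa using (congrArg Prod.snd (Z.hz _ m i i h0).2).le) iy)
  have b1 := a1 i j0 hi hu hd hL hj dj hρ
  have b2 := a2 i j0 hi hu hd hL hj dj hρ
  rw [k_one (left_ne_zero_of_mul hj0), one_mul] at b1 b2
  refine ⟨j0, k_one (right_ne_zero_of_mul hj0), ?_⟩
  have od : (Q.W1.card : K) + Q.W2.card = 1 := by
    obtain ⟨t, ht⟩ := Q.odd
    rw [← Nat.cast_add, ht]
    simp [CharTwo.two_eq_zero]
  rw [← CharTwo.add_eq_zero.1 b1, ← CharTwo.add_eq_zero.1 b2, add_add_add_comm, od,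
    CharTwo.add_self_eq_zero, add_zero]

end Crest.Agent.X212.Tri19
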