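import Crest.Agent.X212.Sub56.Main
import Crest.Agent.X212.Geo28.Re

/-!
# Row 212, layer GEO (helper19): ALG-7', countably many cells with idempotents (after `Sub56.sub`)
-/

set_option autoImplicit false

open Set Function Filter

noncomputable section

universe u

namespace Crest.Agent.X212.Tri19

open Flo2 Flo2.Sk Bor5.T Sub56

variable {K : Sk.{u}} {a b c : K.clo.E}

theorem ed [Countable (K.L a)] (u : K.clo.ED a) : ∀ᶠ A in ev K, ∃ u' : (K.cut A).clo.ED a, u'.e = u.e := by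
  filter_upwards [ev_all fun c : K.L a => cmp (u.ee c)] with A k
  exact ⟨⟨u.e, fun c => pt (u.pt c), u.s, u.t, k⟩, rfl⟩

theorem eIn {E : K.clo.ED a} {τ : K.clo.F a b} (h : E.In τ) :
    ∀ᶠ A in ev K, ∀ E' : (K.cut A).clo.ED a, E'.e = E.e → E'.In τ :=
  (cmp h).mono fun _ k _ e => by rw [ED.In, e]; exact k

theorem eOut {E : K.clo.ED b} {τ : K.clo.F a b} (h : E.Out τ) :
    ∀ᶠ A in ev K, ∀ E' : (K.cut A).clo.ED b, E'.e = E.e → E'.Out τ :=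
  (cmp h).mono fun _ k _ e => by rw [ED.Out, e]; exact k

theorem kil2 {u : K.clo.UD a} {v : K.clo.UD c} {σ : K.clo.F a b} (h : Kil2 u v σ) : ∀ᶠ A in ev K,
    ∀ (u' : (K.cut A).clo.UD a) (v' : (K.cut A).clo.UD c), u'.U = u.U → v'.U = v.U → Kil2 u' v' σ := by
  obtain ⟨σ₁, τ, τ₀, σ₂, h1, h2, h3, h4, h5⟩ := h
  filter_upwards [cmp h1, cmp h2, cmp h3, htp h4, hi0 h5] with A k1 k2 k3 k4 k5 u' v' e e'
  exact ⟨σ₁, τ, τ₀, σ₂, k1, e ▸ k2, e' ▸ k3, k4, k5⟩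

variable {f : K.clo.Arr a b} {g : K.clo.Arr b c} {h : K.clo.Arr c a} {D0 : Dbl f g} {D1 : Dbl g h} {N : K.clo.Cap}
  {T : f.I → g.I → h.I → Prop}

theorem pid2 {P : Pen D0 D1 N} {E : K.clo.ED a} (h : P.Id2 E) : ∀ᶠ A in ev K, ∀ k0 k1 k,
    ∀ E' : (K.cut A).clo.ED a, E'.e = E.e → (pen (A := A) P k0 k1 k).Id2 E' :=
  have := P.f0
  (ev_all fun i => htp (h.htp i)).mono fun _ k _ _ _ _ e => ⟨fun i => by rw [e]; exact k i, h.bij⟩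

theorem mdl2 {P : Pen D0 D1 N T} (m : P.Mdl2) :
    ∀ᶠ A in ev K, ∀ k0 k1 k, Nonempty (pen (A := A) P k0 k1 k).Mdl2 := by
  have := cnt P.prp.1
  have := P.f0
  filter_upwards [ev_all fun i => (hi1 (m.hi1 i)).and (tp (m.tp i)), qhs m.qhs,
    ev_all fun k => (ev_F (P.Γ1 k)).and (ev_F (P.Γ2 k)),
    ev_all fun k => ev_imp fun o => hi1 (m.w1 k o).2.2.1, ev_all fun k => ev_imp fun o => hi1 (m.w2 k o).2.2.1,
    ev_all fun k => ev_imp (hi0 (σ := P.Γ1 k)), ev_all fun k => ev_imp (hi0 (σ := P.Γ2 k))]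
    with A h1 h2 h3 h4 h5 h6 h7 k0 k1 k
  exact ⟨{ m with
    hi1 := fun i => (h1 i).1
    tp := fun i => (h1 i).2
    qhs := h2
    dd1 := fun i c => m.dd1 i c.1
    dd2 := fun i c => m.dd2 i c.1
    tp1 := fun i o => (m.tp1 i o).imp fun _ p => ⟨p.1, (h3 i).1, p.2⟩
    tp2 := fun i o => (m.tp2 i o).imp fun _ p => ⟨p.1, (h3 i).2, p.2⟩
    w1 := fun i o => let ⟨p, q, _, r, s⟩ := m.w1 i o; ⟨p, q, h4 i o, ⟨(h3 i).1, r⟩, s⟩
    w2 := fun i o => let ⟨p, q, _, r, s⟩ := m.w2 i o; ⟨p, q, h5 i o, ⟨(h3 i).2, r⟩, s⟩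
    n1 := fun i o p q s => (m.n1 i o p q s).imp (h6 i) (.imp fun _ p => ⟨p.1, (h3 i).1, p.2⟩)
    n2 := fun i o p q s => (m.n2 i o p q s).imp (h7 i) (.imp fun _ p => ⟨p.1, (h3 i).2, p.2⟩) }⟩

theorem has2 (k : N.Has2) : ∀ᶠ A in ev K, (cap A N).Has2 := by
  obtain ⟨a, b, c, f, g, h, D0, D1, T, P, ⟨m⟩⟩ := k
  filter_upwards [din D0, din D1, pin P, mdl2 m] with A k0 k1 k k2 using ⟨a, b, c, _, _, _, _, _, _, _, k2 k0 k1 k⟩

/-- **ALG-7'** -/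
theorem sub2Stmt : Sub2Stmt.{u} := fun S K r Q R P hP hC hc => by
  have := neBot hC
  have := fun i j (c : S.κ i j) => hc.1 _ _ (S.cob c)
  have := fun i (c : S.γ i) => hc.2 _ (S.cap c)
  have : ∀ i, Countable (K.L (r.ob i)) := fun i =>
    have := (S.ob i).fin
    (r.lab i).symm.injective.countable
  obtain ⟨f, g, h, D0, D1, N, T, Pn, p1, p2, ⟨i0, τ0, p3, p4⟩, p5, p6⟩ := hP
  have := cnt f.prp
  have := cnt h.prp
  choose Dk hk p6 p7 using p6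
  have e0 := ((ev_all fun i => ed (r.E i)).and (ev_all fun i => ev_all fun c : K.L (r.ob i) => eOut (r.eU i c))).and
    ((ev_all fun i => ev_all fun j => ev_all fun c : S.κ i j => ev_all fun d =>
      (eIn (r.ept c d).1).and (eOut (r.ept c d).2)).and
    (ev_all fun i => ev_all fun c : S.γ i => ev_all fun d => ev_all fun h => eOut (r.ecp c d h)))
  have e1 := (ev_all fun i => qhs (r.qhs i)).and (ev_all fun i => ud (r.U i))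
  have e2 := ev_all fun i => ev_all fun j => ev_all fun c : S.κ i j => ev_all fun d =>
    show ∀ᶠ A in ev K, ∃ τ, (K.cut A).clo.Cmp τ ((r.U i).U (K.s (r.pt c d))) (r.pt c d) ∧
      (K.cut A).clo.Cmp τ (r.pt c d) ((r.U j).U (K.t (r.pt c d))) from
    let ⟨τ, a, b⟩ := r.comU c d; ((cmp a).and (cmp b)).mono fun _ k => ⟨τ, k⟩
  have e3 := ev_all fun i => ev_all fun j => ev_all fun c : S.κ i j => ev_all fun c' : S.κ i j =>
    ev_all fun d => ev_all fun d' => ev_imp (htp (σ := r.pt c d) (τ := r.pt c' d'))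
  have e4 := ev_all fun i => ev_all fun j => ev_all fun k => ev_all fun c₁ : S.κ i j => ev_all fun c₂ : S.κ j k =>
    ev_all fun c : S.κ i k => ev_all fun d => ev_all fun d₁ => ev_all fun d₂ =>
      ev_imp (cmp (τ := r.pt c d) (τ₁ := r.pt c₁ d₁) (τ₂ := r.pt c₂ d₂))
  have e5 := ev_all fun i => ev_all fun c : S.κ i i => ev_all fun d => ev_all fun s : K.L (r.ob i) =>
    ev_imp (htp (σ := r.pt c d) (τ := (r.E i).e s))
  have e6 := ev_all fun i => ev_all fun j => ev_all fun c : S.κ i j => ev_all fun d => ev_all fun x : ℚ => ev_imp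
    fun (⟨τ, a, b⟩ : ∃ τ, K.clo.Htp (r.pt c d) τ ∧ K.clo.tp τ x) =>
      show ∀ᶠ A in ev K, ∃ τ, (K.cut A).clo.Htp (r.pt c d) τ ∧ (K.cut A).clo.tp τ x from
      ((htp a).and (tp b)).mono fun _ k => ⟨τ, k⟩
  have e7 := ev_all fun i => ev_all fun j => ev_all fun c : S.κ i j => ev_all fun d => ev_imp
    fun (⟨τ, a, b, e⟩ : ∃ τ, K.clo.Htp (r.pt c d) τ ∧ K.clo.hi1 τ ∧ K.s τ = K.s (r.pt c d)) =>
      show ∀ᶠ A in ev K, ∃ τ, (K.cut A).clo.Htp (r.pt c d) τ ∧ (K.cut A).clo.hi1 τ ∧ K.s τ = K.s (r.pt c d) from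
      ((htp a).and (hi1 b)).mono fun _ k => ⟨τ, k.1, k.2, e⟩
  have e8 := ev_all fun i => ev_all fun j => ev_all fun c : S.κ i j => ev_all fun d => ev_imp
    fun (⟨τ, a, b⟩ : ∃ τ, K.clo.Htp (r.pt c d) τ ∧ K.clo.hi0 τ) =>
      show ∀ᶠ A in ev K, ∃ τ, (K.cut A).clo.Htp (r.pt c d) τ ∧ (K.cut A).clo.hi0 τ from
      ((htp a).and (hi0 b)).mono fun _ k => ⟨τ, k⟩
  have e9 := ev_all fun i => ev_all fun k => ev_all fun c : S.κ i k => ev_all fun c' : S.κ i k =>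
    ev_all fun d => ev_all fun d' => ev_imp
    fun (⟨w, σ, σ', ρ, ρ', L, Q, Q', a1, a2, a3, a4, a5, a6, a7, a8⟩ :
      ∃ (w : K.E) (σ σ' ρ ρ' : K.F (r.ob i) (r.ob k)) (L : K.F3 (r.ob i) (r.ob k) w) (Q Q' : K.F w K.one),
        K.clo.Htp (r.pt c d) ρ ∧ K.clo.Htp (r.pt c' d') ρ' ∧ K.thin w ∧ ¬K.dead w ∧ K.clo.CapI σ ρ L Q ∧
          K.clo.CapI σ' ρ' L Q' ∧ K.clo.Nz Q ∧ K.clo.Nz Q') =>
      show ∀ᶠ A in ev K, ∃ (w : K.E) (σ σ' ρ ρ' : K.F (r.ob i) (r.ob k)) (L : K.F3 (r.ob i) (r.ob k) w)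
        (Q Q' : K.F w K.one), (K.cut A).clo.Htp (r.pt c d) ρ ∧ (K.cut A).clo.Htp (r.pt c' d') ρ' ∧ K.thin w ∧
          ¬K.dead w ∧ (K.cut A).clo.CapI σ ρ L Q ∧ (K.cut A).clo.CapI σ' ρ' L Q' ∧ (K.cut A).clo.Nz Q ∧
          (K.cut A).clo.Nz Q' from by
        filter_upwards [htp a1, htp a2, capI a5, capI a6, nz a7, nz a8] with A b1 b2 b5 b6 b7 b8
        exact ⟨w, σ, σ', ρ, ρ', L, Q, Q', b1, b2, a3, a4, b5, b6, b7, b8⟩
  have e10 := ev_all fun i => ev_all fun j => ev_all fun k => ev_all fun c₁ : S.κ i j => ev_all fun c₂ : S.κ j k =>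
    ev_imp fun (⟨⟨f0, g0, D0, a5, a6⟩, f, g, h, D1, D2, N, P, a1, a2, a3, a4⟩ :
      (∃ (A : K.clo.Arr (r.ob i) (r.ob j)) (B : K.clo.Arr (r.ob j) (r.ob k)) (_ : Dbl A B),
        A.Rp (r.pt c₁) ∧ B.Rp (r.pt c₂)) ∧
      ∃ (A : K.clo.Arr (r.ob i) (r.ob j)) (B : K.clo.Arr (r.ob j) (r.ob k)) (C : K.clo.Arr (r.ob k) (r.ob i))
        (D1 : Dbl B C) (D2 : Dbl C A) (N : K.clo.Cap) (P : Pen D1 D2 N),
        A.Rp (r.pt c₁) ∧ B.Rp (r.pt c₂) ∧ N.Has2 ∧ P.Id2 (r.E j)) =>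
      show ∀ᶠ X in ev K, ∀ E' : (K.cut X).clo.ED (r.ob j), E'.e = (r.E j).e →
        (∃ (A : (K.cut X).clo.Arr (r.ob i) (r.ob j)) (B : (K.cut X).clo.Arr (r.ob j) (r.ob k)) (_ : Dbl A B),
          A.Rp (r.pt c₁) ∧ B.Rp (r.pt c₂)) ∧
        ∃ (A : (K.cut X).clo.Arr (r.ob i) (r.ob j)) (B : (K.cut X).clo.Arr (r.ob j) (r.ob k))
        (C : (K.cut X).clo.Arr (r.ob k) (r.ob i)) (D1 : Dbl B C) (D2 : Dbl C A)
        (N : (K.cut X).clo.Cap) (P : Pen D1 D2 N), A.Rp (r.pt c₁) ∧ B.Rp (r.pt c₂) ∧ N.Has2 ∧ P.Id2 E' from by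
        filter_upwards [din D0, din D1, din D2, pin P, rp a1, rp a2, has2 a3, pid2 a4, rp a5, rp a6]
          with A k0 k1 k2 k b1 b2 b3 b4 b5 b6 E' e
        exact ⟨⟨_, _, dbl D0 k0, b5, b6⟩, _, _, _, _, _, _, _, b1, b2, b3, b4 k1 k2 k E' e⟩
  have e11 := ev_all fun i => ev_all fun c : S.γ i => ev_all fun c' : S.γ i => ev_all fun d => ev_all fun d' =>
    ev_all fun h => ev_all fun h' => ev_imp (htp (σ := r.cp c d h) (τ := r.cp c' d' h'))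
  have e12 := ev_all fun j => ev_all fun k => ev_all fun c₁ : S.γ j => ev_all fun c₂ : S.κ j k =>
    ev_all fun c : S.γ k => ev_all fun d => ev_all fun d₁ => ev_all fun d₂ => ev_all fun h₁ => ev_all fun h =>
      ev_imp (cmp (τ := r.cp c d h) (τ₁ := r.cp c₁ d₁ h₁) (τ₂ := r.pt c₂ d₂))
  have e13 := (((din D0).and (din D1)).and ((pin Pn).and (has2 p1))).and (((htp p3).and (ev_F τ0)).and
    ((ev_all fun k => (kil2 (p5 k).1).and (eIn (p5 k).2)).and (ev_all fun k => htp (p7 k))))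
  obtain ⟨A, ⟨⟨t0, t1⟩, t2, t3⟩, ⟨⟨⟨q1, q0⟩, q2, q3⟩, ⟨q4, q5⟩, q6, q7⟩, ⟨⟨q8, q9⟩, q10, q11⟩, q12,
      ⟨⟨k0, k1⟩, k, s1⟩, ⟨s3, s4⟩, s5, s7⟩ := (e0.and ((((e1.and (e2.and e3))).and ((e4.and e5).and (e6.and e7))).and
      (((e8.and e9).and (e10.and e11)).and (e12.and e13)))).exists
  choose U hU using q0
  choose E hE using t0
  exact ⟨A, { r with
    qhs := q1
    U := U
    E := E
    eU := fun i c => by rw [hU]; exact t1 i c _ (hE i)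
    ept := fun c d => ⟨(t2 _ _ c d).1 _ (hE _), (t2 _ _ c d).2 _ (hE _)⟩
    ecp := fun c d h => t3 _ c d h _ (hE _)
    isPt := fun c d => pt (r.isPt c d)
    comU := fun c d => by rw [hU, hU]; exact q2 _ _ c d
    nat := fun c c' φ d d' a1 a2 a3 => q3 _ _ c c' d d' (r.nat c c' φ d d' a1 a2 a3)
    comp := fun c₁ c₂ c g d d₁ d₂ a1 a2 a3 => q4 _ _ _ c₁ c₂ c d d₁ d₂ (r.comp c₁ c₂ c g d d₁ d₂ a1 a2 a3)
    id := fun c φ d s a1 a2 a3 a4 => by rw [hE]; exact q5 _ c d _ (r.id c φ d s a1 a2 a3 a4)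
    deg := fun c d _ _ _ e g Z c₀ x a1 a2 a3 a4 => q6 _ _ c d x (r.deg c d e g Z c₀ x a1 a2 a3 a4)
    tn := fun c d _ _ _ e g Z a1 a2 => q7 _ _ c d (r.tn c d e g Z a1 a2)
    tp := fun c d e a1 a2 => q8 _ _ c d (r.tp c d e a1 a2)
    bu := fun c c' _ _ _ _ _ _ _ _ _ hv hv' f g s s' d d' d₀ a1 a2 a3 a4 a5 a6 a7 =>
      q9 _ _ c c' d d' (r.bu c c' hv hv' f g s s' d d' d₀ a1 a2 a3 a4 a5 a6 a7)
    triad := fun c₁ c₂ c₃ _ _ _ _ f g h a1 a2 a3 a4 =>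
      q10 _ _ _ c₁ c₂ (r.triad c₁ c₂ c₃ f g h a1 a2 a3 a4) _ (hE _)
    natc := fun c c' φ d d' a1 a2 a3 =>
      let ⟨h, h', a⟩ := r.natc c c' φ d d' a1 a2 a3; ⟨h, h', q11 _ c c' d d' h h' a⟩
    compc := fun c₁ c₂ c g d d₁ d₂ a1 a2 a3 h₁ h =>
      q12 _ _ c₁ c₂ c d d₁ d₂ h₁ h (r.compc c₁ c₂ c g d d₁ d₂ a1 a2 a3 h₁ h) },
    _, _, _, _, _, _, _, pen Pn k0 k1 k, s1, p2, ⟨i0, τ0, s3, s4, p4⟩,
    fun j => ⟨(s5 j).1 _ _ (hU _) (hU _), (s5 j).2 _ (hE _)⟩,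
    fun j => ⟨Dk j, hk j, p6 j, s7 j⟩⟩

end Crest.Agent.X212.Tri19
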