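import Crest.Agent.X212.Alg43.Tri
import Crest.Agent.X212.Geo28.Re

/-!
# Row 212, layer GEO (helper19): exactness up to an idempotent (ALG-3')
-/

set_option autoImplicit false

open Module Function Filter

noncomputable section

namespace Crest.Agent.X212.Tri19

open Win22 Flo2 WG Alg43 Cx
open Bor5 (K)

theorem key {V V' V'' Λ : Type*} [AddCommGroup V] [Module K V] [AddCommGroup V''] [Module K V''] (g : Gd K V Λ)
    (deg : Λ → ℚ) (fd : ∀ a, FiniteDimensional K (g.up {l | deg l ≤ a})) {E N : V →ₗ[K] V} {F : V' → V}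
    {G : V →ₗ[K] V''} (dN : ∀ l, ∀ x ∈ g.W l, N x ∈ g.up {k | deg k < deg l}) (h1 : ∀ x, G (F x) = 0)
    (h2 : ∀ y, G y = 0 → ∃ x, F x = E y + N y) (hE : ∀ y, E (E y) = E y) (hF : ∀ x, E (F x) = F x)
    (hG : ∀ y, G (E y) = G y) {y : V} (hy : G y = 0) : ∃ x, F x = E y := by
  obtain ⟨a, ha⟩ := g.exists_le deg y
  have hi := g.inj_add deg (u := .id) injective_id (fun l x hx => g.W_le_up (S := {k | deg k = deg l}) rfl hx) dN
  have hS : ∀ z ∈ g.up {l | deg l ≤ a} ⊓ LinearMap.ker G,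
      (LinearMap.id + N : V →ₗ[K] V) z ∈ g.up {l | deg l ≤ a} ⊓ LinearMap.ker G := fun z hz => by
    obtain ⟨x, e⟩ := h2 z hz.2
    have k := h1 x
    rw [e, map_add, hG, ← map_add] at k
    exact ⟨add_mem hz.1 (g.map_up' (fun l hl y hy => g.mono' (fun k hk => hk.le.trans hl) (dN l y hy)) hz.1), k⟩
  have := fd a
  obtain ⟨z, hz⟩ := LinearMap.surjective_of_injective (f := (LinearMap.id + N).restrict hS)
    (fun a b h => Subtype.ext (hi (congrArg Subtype.val h))) ⟨y, ha, hy⟩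
  obtain ⟨x, e⟩ := h2 z z.2.2
  refine ⟨x, ?_⟩
  rw [← hF, e, map_add, hE, ← map_add]
  exact congrArg (fun z => E z.1) hz

theorem nul_lim {S : Sk} (Z : Flo2.Cs S) {a b c : S.E} {f : S.Arr a b} {g : S.Arr b c} (D : Sk.Dbl f g) (y) :
    (Z.cx c).cx.d ((wm _ (bd_nul (Z := Z) D)).lim y) + (wm _ (bd_nul D)).lim ((Z.cx a).cx.d y) =
      (ach Z g).lim ((ach Z f).lim y) := by
  obtain ⟨x, -, r, -⟩ := exists_rp y
  exact (((Z.cx c).dM.rp ((wm _ (bd_nul D)).rp r)).add ((wm _ (bd_nul D)).rp ((Z.cx a).dM.rp r))).ext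
    ((ach Z g).rp ((ach Z f).rp r)) (r.loc (nul_loc Z D))

/-- ALG-3' -/
theorem tri2Stmt : Tri2Stmt := fun _ Z a b c f g h D1 D2 _ P E hN h0 hE h1 h2 h3 h4 => by
  let u := tch P.pι (show Al fun i => Z.z (P.ι i) from Cof.fintype _)
  obtain rfl : E = u.hm := funext fun y => (hE y).trans ((tch_hm _ _ y).2.trans (finsum_eq_sum_of_fintype _)).symm
  obtain ⟨G, e⟩ := pen_loc Z P
  have lo : ∀ᶠ m in atTop, ∀ i k, capT Z P m i k ≠ 0 → ((Z.A b).lab m k).2 < ((Z.A b).lab m i).2 :=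
    (capT_low P hN).mono fun m k i l u => by
      obtain ⟨t, ht⟩ := k i l u
      rwa [h0, add_zero] at ht
  let ν := wm (capT Z P) fun r => ⟨r, lo.mono fun m k i l hi u => (k i l u).le.trans hi⟩
  let hB := wm _ (bd_nul (Z := Z) D1)
  let hC := wm _ (bd_nul (Z := Z) D2)
  have eB : ∀ y, _ + hB.lim _ = _ := nul_lim Z D1
  have eC : ∀ y, _ + hC.lim _ = _ := nul_lim Z D2
  have eq : ∀ y, (Z.cx b).cx.d (G.lim y) + G.lim ((Z.cx b).cx.d y) =
      (ach Z f).lim (hB.lim y) + hC.lim ((ach Z g).lim y) + (u.lim y + ν.lim y) := fun y => by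
    obtain ⟨x, -, r, -⟩ := exists_rp y
    exact (((Z.cx b).dM.rp (G.rp r)).add (G.rp ((Z.cx b).dM.rp r))).ext
      ((((ach Z f).rp (hB.rp r)).add (hC.rp ((ach Z g).rp r))).add ((u.rp r).add (ν.rp r))) (r.loc e)
  have cν : IsCh (Z.cx b).cx.toCx (Z.cx b).cx.toCx ν.lim := fun x => by
    have e1 := congrArg (Z.cx b).cx.d (eq x)
    have e2 := eq ((Z.cx b).cx.d x)
    have e3 := congrArg (ach Z f).lim (eB x)
    have e4 := eC ((ach Z g).lim x)
    rw [map_add, map_add, map_add, map_add, Cx.dd, u.isCh, (ach Z f).isCh] at e1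
    rw [Cx.dd, map_zero] at e2
    rw [map_add] at e3
    rw [(ach Z g).isCh] at e4
    have a1 := add_self2 K ((ach Z f).lim (hB.lim ((Z.cx b).cx.d x)))
    have a2 := add_self2 K (hC.lim ((ach Z g).lim ((Z.cx b).cx.d x)))
    have a3 := add_self2 K ((ach Z f).lim ((ach Z h).lim ((ach Z g).lim x)))
    linear_combination (norm := abel) e2 - e1 - e3 - e4 + a1 + a2 - a3
  rw [ach_hm] at h2 h3 h4
  rw [ach_hm Z f] at h4
  rw [ach_hm, ach_hm]
  refine fun y => key (Z.cx b).cx.hg Prod.snd (fun r => ?_) (fun l c hc => HCx.map_hg cν (ν.lim_up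
    (lo.mono fun m k => Gen.mat_up fun i j hi u => hi ▸ k i j u)) hc) h4 (fun y hy => ?_) h1 h2 h3
  · have : FiniteDimensional K ((Z.cx b).cx.g.up {l | l.2 ≤ r}) := (Z.cx b).lg_le_fd r
    rw [HCx.hg_up]
    exact HCx.fd_img _
  · obtain ⟨x, hx, rfl⟩ := (Z.cx b).cx.exists_cls y
    obtain ⟨z, hz⟩ := ((Z.cx c).cx.cls_eq_zero ((ach Z g).isCh.cyc hx)).1 hy
    have e1 := eB x
    have e2 := eC z
    have e3 := eq x
    rw [hx, map_zero, add_zero] at e1 e3
    rw [hz] at e2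
    have hw : (Z.cx a).cx.d (hB.lim x + (ach Z h).lim z) = 0 := by
      rw [map_add, e1, (ach Z h).isCh, hz, add_self2 K]
    refine ⟨(Z.cx a).cx.cls _ hw, Eq.trans (((Z.cx b).cx.cls_eq_iff ((ach Z f).isCh.cyc hw)
      ((u.isCh.add cν).cyc hx)).2 ⟨hC.lim z + G.lim x, ?_⟩) ((Z.cx b).cx.cls_add (u.isCh.cyc hx) (cν.cyc hx) _)⟩
    rw [map_add, map_add, LinearMap.add_apply]
    have a1 := add_self2 K (u.lim x + ν.lim x)
    linear_combination (norm := abel) e2 + e3 + a1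

end Crest.Agent.X212.Tri19
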